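import Vale.Agent.P229.H832.Main

/-! P229: smooth metrics, arbitrarily close to the flat one, which are not locally realizable at
any point of a given closed set without interior; almost all points can be bad. -/

open scoped ContDiff
open Vale.Agent.P229

namespace Vale.Agent.Results.P229.BadSets

/-- (1) There is a smooth metric on the plane which has no `C^n` isometric immersion, `n ≥ 4`, into
Euclidean three-space on any neighbourhood of the origin.

(2) For every closed set `F` of the plane with empty interior, every open set `V` containing `F`,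
every `m` and every positive continuous function `ε` there is a smooth metric `g` on the plane,
equal to the Euclidean metric off `V`, whose coefficients and their derivatives up to the order `m`
differ from those of the Euclidean metric by at most `ε x` at every point `x`, and which has no
`C^n` isometric immersion, `n ≥ 4`, on any neighbourhood of any point of `F`.

(3) For all `m`, `ε` as in (2) and every `η > 0` there is such a metric for which the set of the
points at which it is locally `C^n`-realizable for some `n ≥ 4` has Lebesgue measure `< η`. -/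
theorem result :
    (∃ g : E2 → Matrix (Fin 2) (Fin 2) ℝ, IsMetricOn ∞ g Set.univ ∧
      ∀ n : WithTop ℕ∞, 4 ≤ n → ¬ LocallyRealizableAt n g 0) ∧
    (∀ F V : Set E2, IsClosed F → interior F = ∅ → IsOpen V → F ⊆ V →
      ∀ (m : ℕ) (ε : E2 → ℝ), Continuous ε → (∀ x, 0 < ε x) →
      ∃ g : E2 → Matrix (Fin 2) (Fin 2) ℝ, IsMetricOn ∞ g Set.univ ∧
        (∀ x ∉ V, g x = 1) ∧
        (∀ j ≤ m, ∀ (i k : Fin 2) (x : E2), ‖iteratedFDeriv ℝ j
          (fun y => g y i k - (1 : Matrix (Fin 2) (Fin 2) ℝ) i k) x‖ ≤ ε x) ∧
        ∀ p ∈ F, ∀ n : WithTop ℕ∞, 4 ≤ n → ¬ LocallyRealizableAt n g p) ∧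
    (∀ (m : ℕ) (ε : E2 → ℝ), Continuous ε → (∀ x, 0 < ε x) → ∀ η : ℝ, 0 < η →
      ∃ g : E2 → Matrix (Fin 2) (Fin 2) ℝ, IsMetricOn ∞ g Set.univ ∧
        (∀ j ≤ m, ∀ (i k : Fin 2) (x : E2), ‖iteratedFDeriv ℝ j
          (fun y => g y i k - (1 : Matrix (Fin 2) (Fin 2) ℝ) i k) x‖ ≤ ε x) ∧
        MeasureTheory.volume {p : E2 | ∃ n : WithTop ℕ∞, 4 ≤ n ∧ LocallyRealizableAt n g p} <
          ENNReal.ofReal η) :=
  ⟨Vale.Agent.P229.D.main,
    fun _ _ hF hi hV hFV m _ hε hε0 => Vale.Agent.P229.H832.main hF hi hV hFV m hε hε0,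
    fun m _ hε hε0 _ hη => Vale.Agent.P229.H832.main_measure m hε hε0 hη⟩

end Vale.Agent.Results.P229.BadSets
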