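import Vale.Agent.P229.H870.Final

/-! P229: metrics without local realization near every smooth metric. -/

open scoped ContDiff Topology
open Vale.Agent.P229
open Vale.Agent.P229.H870 (curvature)

namespace Vale.Agent.Results.P229.NearEveryMetric

/-- (1) Not every smooth metric on an open set of the plane is locally smoothly realizable at every
point: there is a smooth metric on the plane which has no `C^n` isometric immersion, `n ≥ 4`, into
Euclidean three-space on any neighbourhood of the origin.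

(2) Let `g₀` be any smooth metric on an open set `Ω` of the plane, `p ∈ Ω`, and let `m` be such that
all derivatives of order `≤ m - 2` of the Gaussian curvature of `g₀` vanish at `p` (no condition if
`m = 0` or `m = 1`). For every open set `V` containing `p` and every `ε > 0` there is a smooth
metric `g` on `Ω`, equal to `g₀` off `V`, whose coefficients and their derivatives up to the order
`m` differ from those of `g₀` by at most `ε`, and which has no `C^n` isometric immersion, `n ≥ 4`,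
on any neighbourhood of `p`.

(3) Let `g₀` be any smooth metric on an open set `Ω`, `P ⊆ Ω` a set without accumulation points in
`Ω`, `V` an open set containing `P`, `ε` a positive continuous function on `Ω`, and `m` a number
such that all derivatives of order `≤ m - 2` of the Gaussian curvature of `g₀` vanish at the points
of `P`. There is an open set `N`, `P ⊆ N ⊆ V ∩ Ω`, such that for every relatively closed subset `F`
of `Ω` with `F ⊆ N` and without interior there is a smooth metric `g` on `Ω`, equal to `g₀` off `V`,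
`ε`-close to `g₀` with its derivatives up to the order `m`, which has no `C^n` isometric immersion,
`n ≥ 4`, on any neighbourhood of any point of `F`. -/
theorem result :
    ((¬ ∀ (Ω : Set E2) (g : E2 → Matrix (Fin 2) (Fin 2) ℝ), IsOpen Ω → IsMetricOn ∞ g Ω →
        ∀ p ∈ Ω, LocallyRealizableAt ∞ g p) ∧
      ∃ g : E2 → Matrix (Fin 2) (Fin 2) ℝ, IsMetricOn ∞ g Set.univ ∧
        ∀ n : WithTop ℕ∞, 4 ≤ n → ¬ LocallyRealizableAt n g 0) ∧
    (∀ (Ω : Set E2) (g₀ : E2 → Matrix (Fin 2) (Fin 2) ℝ), IsOpen Ω → IsMetricOn ∞ g₀ Ω →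
      ∀ p ∈ Ω, ∀ m : ℕ, (∀ j, j + 2 ≤ m → iteratedFDeriv ℝ j (curvature g₀) p = 0) →
      ∀ V : Set E2, IsOpen V → p ∈ V → ∀ ε : ℝ, 0 < ε →
      ∃ g : E2 → Matrix (Fin 2) (Fin 2) ℝ, IsMetricOn ∞ g Ω ∧ (∀ x ∉ V, g x = g₀ x) ∧
        (∀ j ≤ m, ∀ (i k : Fin 2), ∀ x ∈ Ω,
          ‖iteratedFDeriv ℝ j (fun y => g y i k - g₀ y i k) x‖ ≤ ε) ∧
        ∀ n : WithTop ℕ∞, 4 ≤ n → ¬ LocallyRealizableAt n g p) ∧
    (∀ (Ω : Set E2) (g₀ : E2 → Matrix (Fin 2) (Fin 2) ℝ), IsOpen Ω → IsMetricOn ∞ g₀ Ω →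
      ∀ P ⊆ Ω, (∀ x ∈ Ω, ∃ U ∈ 𝓝 x, (P ∩ U).Finite) → ∀ V : Set E2, IsOpen V → P ⊆ V →
      ∀ m : ℕ, (∀ p ∈ P, ∀ j, j + 2 ≤ m → iteratedFDeriv ℝ j (curvature g₀) p = 0) →
      ∀ ε : E2 → ℝ, ContinuousOn ε Ω → (∀ x ∈ Ω, 0 < ε x) →
      ∃ N : Set E2, IsOpen N ∧ P ⊆ N ∧ N ⊆ V ∩ Ω ∧
        ∀ F ⊆ N, (∃ C, IsClosed C ∧ F = C ∩ Ω) → interior F = ∅ →
        ∃ g : E2 → Matrix (Fin 2) (Fin 2) ℝ, IsMetricOn ∞ g Ω ∧ (∀ x ∉ V, g x = g₀ x) ∧
          (∀ j ≤ m, ∀ (i k : Fin 2), ∀ x ∈ Ω,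
            ‖iteratedFDeriv ℝ j (fun y => g y i k - g₀ y i k) x‖ ≤ ε x) ∧
          ∀ q ∈ F, ∀ n : WithTop ℕ∞, 4 ≤ n → ¬ LocallyRealizableAt n g q) := by
  refine ⟨⟨fun h => ?_, Vale.Agent.P229.D.main⟩,
    fun _ _ hΩ hg₀ _ hp _ hK _ hV hpV _ hε => H870.main_point hΩ hg₀ hp hK hV hpV hε,
    fun _ _ hΩ hg₀ _ hPΩ hP _ hV hPV _ hK _ hε hε0 =>
      H870.main hΩ hg₀ hPΩ hP hV hPV hK hε hε0⟩
  obtain ⟨g, hg, hno⟩ := Vale.Agent.P229.D.main
  exact hno ∞ (WithTop.coe_le_coe.2 (le_top : (4 : ℕ∞) ≤ ⊤))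
    (h Set.univ g isOpen_univ hg 0 (Set.mem_univ _))

end Vale.Agent.Results.P229.NearEveryMetric
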